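import Vale.Agent.P220I10.Gen
import Mathlib.Analysis.LocallyConvex.SeparatingDual

/-!
# P220I10: the canonical one-form in the charts of the cotangent bundle
-/

set_option linter.unusedSectionVars false

open Set Bundle Filter
open scoped ContDiff Manifold Topology

namespace Vale.Agent.P220I

theorem t2_total {B F : Type} {V : B → Type} [TopologicalSpace B] [TopologicalSpace F]
    [TopologicalSpace (TotalSpace F V)] [∀ b, TopologicalSpace (V b)] [FiberBundle F V]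
    [T2Space B] [T2Space F] : T2Space (TotalSpace F V) := by
  refine ⟨fun z w hne => ?_⟩
  by_cases h : z.1 = w.1
  · let e := (trivializationAt F V z.1).toOpenPartialHomeomorph
    have hz : z ∈ e.source := (trivializationAt F V z.1).mem_source.2
      (mem_baseSet_trivializationAt F V z.1)
    have hw : w ∈ e.source := (trivializationAt F V z.1).mem_source.2
      (h ▸ mem_baseSet_trivializationAt F V z.1)
    obtain ⟨s, t, hs, ht, h1, h2, h3⟩ := t2_separation fun h4 => hne (e.injOn hz hw h4)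
    exact ⟨e.source ∩ e ⁻¹' s, e.source ∩ e ⁻¹' t, e.isOpen_inter_preimage hs,
      e.isOpen_inter_preimage ht, ⟨hz, h1⟩, ⟨hw, h2⟩,
      (h3.preimage e).mono inter_subset_right inter_subset_right⟩
  · exact separated_by_continuous (FiberBundle.continuous_proj F V) h

variable {E : Type} [NormedAddCommGroup E] [NormedSpace ℝ E] {Q : Type} [TopologicalSpace Q]
  [ChartedSpace E Q] [IsManifold 𝓘(ℝ, E) ∞ Q]

theorem t2Cot [T2Space Q] : T2Space (Cot E Q) :=
  t2_total (F := E →L[ℝ] ℝ) (V := fun q : Q => TangentSpace 𝓘(ℝ, E) q →L[ℝ] Trivial Q ℝ q)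

theorem bdIC : (IC E).Boundaryless :=
  show (𝓘(ℝ, E).prod 𝓘(ℝ, E →L[ℝ] ℝ)).Boundaryless from inferInstance

variable (E) in
/-- `p dq` -/
noncomputable def can : (E × (E →L[ℝ] ℝ)) →L[ℝ] (E × (E →L[ℝ] ℝ)) →L[ℝ] ℝ :=
  (ContinuousLinearMap.id ℝ (E →L[ℝ] ℝ)).bilinearComp (ContinuousLinearMap.snd ℝ _ _)
    (ContinuousLinearMap.fst ℝ _ _)

theorem can_apply (u v : E × (E →L[ℝ] ℝ)) : can E u v = u.2 v.1 := rfl

theorem can_nondeg (u : E × (E →L[ℝ] ℝ)) (h : ∀ v, can E u v - can E v u = 0) : u = 0 := by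
  refine Prod.ext (SeparatingDual.eq_zero_of_forall_dual_eq_zero (R := ℝ) fun f => ?_) ?_
  · simpa [can_apply] using h (0, f)
  · ext a
    simpa [can_apply] using h (a, 0)

theorem chart_ap (z₀ z : Cot E Q) : extChartAt (IC E) z₀ z =
    (extChartAt 𝓘(ℝ, E) z₀.1 z.1, (trivializationAt (E →L[ℝ] ℝ)
      (fun q : Q => TangentSpace 𝓘(ℝ, E) q →L[ℝ] Trivial Q ℝ q) z₀.1 z).2) := by
  have h := FiberBundle.extChartAt (IB := 𝓘(ℝ, E)) (F := E →L[ℝ] ℝ)
    (E := fun q : Q => TangentSpace 𝓘(ℝ, E) q →L[ℝ] Trivial Q ℝ q) z₀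
  exact congrArg (fun e : PartialEquiv (Cot E Q) (E × (E →L[ℝ] ℝ)) => e z) h

theorem chart_src {z₀ z : Cot E Q} (hz : z ∈ (extChartAt (IC E) z₀).source) :
    z.1 ∈ (chartAt E z₀.1).source := by
  have h := FiberBundle.extChartAt (IB := 𝓘(ℝ, E)) (F := E →L[ℝ] ℝ)
    (E := fun q : Q => TangentSpace 𝓘(ℝ, E) q →L[ℝ] Trivial Q ℝ q) z₀
  have h1 := (congrArg (fun e : PartialEquiv (Cot E Q) (E × (E →L[ℝ] ℝ)) => z ∈ e.source) h).mp hz
  have h2 := h1.2.1
  rw [extChartAt_source] at h2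
  exact h2

theorem chart_fst (z₀ z : Cot E Q) :
    (extChartAt (IC E) z₀ z).1 = extChartAt 𝓘(ℝ, E) z₀.1 z.1 :=
  congrArg Prod.fst (chart_ap z₀ z)

theorem chart_snd (z₀ z : Cot E Q) (a : E) : (extChartAt (IC E) z₀ z).2 a =
    cov E Q z ((trivializationAt E (TangentSpace 𝓘(ℝ, E)) z₀.1).symmL ℝ z.1 a) := by
  have h : (extChartAt (IC E) z₀ z).2 = ContinuousLinearMap.inCoordinates E (TangentSpace 𝓘(ℝ, E))
      ℝ (Trivial Q ℝ) z₀.1 z.1 z₀.1 z.1 z.2 := congrArg Prod.snd (chart_ap z₀ z)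
  rw [h]
  simp [ContinuousLinearMap.inCoordinates]
  rfl

theorem loc_lam [FiniteDimensional ℝ E] : Loc (lam E Q) (can E) := by
  have := bdIC (E := E)
  intro z₀ y hy v
  have hs := (extChartAt (IC E) z₀).map_target hy
  have hq := chart_src hs
  have h1 := chart_fst z₀ ((extChartAt (IC E) z₀).symm y)
  have h1' := chart_snd z₀ ((extChartAt (IC E) z₀).symm y) v.1
  rw [(extChartAt (IC E) z₀).right_inv hy] at h1 h1'
  have hy1 : y.1 ∈ (extChartAt 𝓘(ℝ, E) z₀.1).target := by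
    rw [h1]
    exact (extChartAt 𝓘(ℝ, E) z₀.1).map_source (by rwa [extChartAt_source])
  have h2 : pr E Q ∘ (extChartAt (IC E) z₀).symm =ᶠ[𝓝 y]
      (extChartAt 𝓘(ℝ, E) z₀.1).symm ∘ Prod.fst := by
    filter_upwards [(isOpen_extChartAt_target z₀).mem_nhds hy] with w hw
    have h3 := chart_fst z₀ ((extChartAt (IC E) z₀).symm w)
    rw [(extChartAt (IC E) z₀).right_inv hw] at h3
    have h4 := chart_src ((extChartAt (IC E) z₀).map_target hw)
    rw [Function.comp_apply, Function.comp_apply, h3]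
    exact ((extChartAt 𝓘(ℝ, E) z₀.1).left_inv (by rwa [extChartAt_source])).symm
  have hp : ContMDiff (IC E) 𝓘(ℝ, E) ∞ (pr E Q) :=
    Bundle.contMDiff_proj (IB := 𝓘(ℝ, E)) (F := E →L[ℝ] ℝ)
      (fun q : Q => TangentSpace 𝓘(ℝ, E) q →L[ℝ] Trivial Q ℝ q)
  have h5 := mfderiv_comp y ((hp _).mdifferentiableAt (by simp))
    ((sm_symm hy).mdifferentiableAt (by simp))
  have h6 := mfderiv_comp (I := 𝓘(ℝ, E × (E →L[ℝ] ℝ))) y
    ((sm_symm hy1).mdifferentiableAt (by simp)) differentiableAt_fst.mdifferentiableAt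
  rw [h2.mfderiv_eq, h6, mfderiv_eq_fderiv, fderiv_fst] at h5
  have h7 := congrArg (fun L : (E × (E →L[ℝ] ℝ)) →L[ℝ] E => L v) h5
  have h8 := symmL_eq (I := 𝓘(ℝ, E)) hq
  rw [← h1] at h8
  have h9 := congrArg (fun L : E →L[ℝ] E => L v.1) h8
  exact (congrArg (cov E Q ((extChartAt (IC E) z₀).symm y)) (h9.trans h7).symm).trans h1'.symm

theorem liouville [FiniteDimensional ℝ E] [T2Space Q] : IsLiouville (lam E Q) := by
  have := bdIC (E := E)
  have := t2Cot (E := E) (Q := Q)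
  exact loc_lam.liouville can_nondeg

end Vale.Agent.P220I
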