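import Mathlib.Geometry.Manifold.VectorBundle.Hom
import Mathlib.Geometry.Manifold.VectorBundle.ContMDiffSection
import Mathlib.Geometry.Manifold.VectorField.LieBracket
import Mathlib.Geometry.Manifold.MFDeriv.NormedSpace
import Mathlib.Geometry.Manifold.Instances.Real
import Mathlib.Topology.VectorBundle.ContinuousAlternatingMap

/-!
# P220: the nearby Lagrangian conjecture, with no coordinates

Manifolds, tangent spaces, differentials, vector fields, forms and the Lie bracket are the ones of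
Mathlib.  The first part is about a manifold `N` with a one-form `α` and a two-form `om`; it is
applied to `T*Q` with its canonical one-form and `om = dα`.
-/

open Set Bundle
open scoped ContDiff Manifold

namespace Vale.Agent.P220I

section Forms

variable {F G : Type} [NormedAddCommGroup F] [NormedSpace ℝ F] [TopologicalSpace G]
  (I : ModelWithCorners ℝ F G) (N : Type) [TopologicalSpace N] [ChartedSpace G N]
  [IsManifold I ∞ N]

/-- Smooth vector fields: smooth sections of the tangent bundle. -/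
abbrev Vec := Cₛ^∞⟮I; F, fun x : N => TangentSpace I x⟯

/-- Smooth two-forms: smooth sections of the bundle of alternating bilinear forms on the tangent
spaces. -/
abbrev TwoForm := Cₛ^∞⟮I; F [⋀^Fin 2]→L[ℝ] ℝ,
  fun x : N => TangentSpace I x [⋀^Fin 2]→L[ℝ] Trivial N ℝ x⟯

variable {I N} (α : ∀ x : N, TangentSpace I x →L[ℝ] ℝ) (om : TwoForm I N)

/-- `α` is a smooth one-form: a smooth section of the bundle of linear forms on the tangent
spaces. -/
def IsOneForm : Prop :=
  ContMDiff I (I.prod 𝓘(ℝ, F →L[ℝ] ℝ)) ∞ fun x : N => TotalSpace.mk' (F →L[ℝ] ℝ)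
    (E := fun x : N => TangentSpace I x →L[ℝ] Trivial N ℝ x) x (α x)

/-- The value `om(u, v)` of a two-form on two tangent vectors at `x`. -/
noncomputable def val {x : N} (u v : TangentSpace I x) : ℝ := om x ![u, v]

/-- `om = dα`: `om(X, Y) = X(α(Y)) - Y(α(X)) - α([X, Y])` for all smooth vector fields. -/
def IsD : Prop :=
  ∀ (X Y : Vec I N) (x : N), val om (X x) (Y x) =
    mvfderiv I (fun y => α y (Y y)) x (X x) - mvfderiv I (fun y => α y (X y)) x (Y x) -
      α x (VectorField.mlieBracket I X Y x)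

/-- `X` is the Hamiltonian vector field of `h`: `ι_X om = -dh`. -/
def IsHamField (h : N → ℝ) (X : ∀ x : N, TangentSpace I x) : Prop :=
  ∀ x v, val om (X x) v = -mvfderiv I h x v

/-- `α` is a smooth one-form, it has exactly one exterior derivative, and for this two-form every
function has exactly one Hamiltonian vector field. -/
def IsLiouville : Prop :=
  IsOneForm α ∧ (∃! om, IsD α om) ∧ ∀ om, IsD α om → ∀ h, ∃! X, IsHamField om h X

/-- `ι : M → N` is a smooth embedding on which `om` vanishes and `α` is exact. -/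
structure IsExact (E : Type) [NormedAddCommGroup E] [NormedSpace ℝ E] {M : Type}
    [TopologicalSpace M] [ChartedSpace E M] (ι : M → N) : Prop where
  /-- smooth -/
  smooth : ContMDiff 𝓘(ℝ, E) I ∞ ι
  /-- an immersion -/
  imm : ∀ x, Function.Injective (mfderiv 𝓘(ℝ, E) I ι x)
  /-- a homeomorphism onto its image -/
  emb : Topology.IsEmbedding ι
  /-- `om` vanishes on the image -/
  lag : ∀ x u v, val om (mfderiv 𝓘(ℝ, E) I ι x u) (mfderiv 𝓘(ℝ, E) I ι x v) = 0
  /-- `α` is exact on the image -/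
  exact : ∃ f : M → ℝ, ContMDiff 𝓘(ℝ, E) 𝓘(ℝ) ∞ f ∧
    ∀ x v, mvfderiv 𝓘(ℝ, E) f x v = α (ι x) (mfderiv 𝓘(ℝ, E) I ι x v)

variable (I) in
/-- `H` is a smooth function on `[0, 1] × N` with support in one compact subset of `N`. -/
structure IsHam (H : ℝ × N → ℝ) : Prop where
  /-- smooth -/
  smooth : ContMDiffOn (𝓘(ℝ).prod I) 𝓘(ℝ) ∞ H (Icc 0 1 ×ˢ univ)
  /-- compact support -/
  supp : ∃ K, IsCompact K ∧ ∀ t ∈ Icc (0 : ℝ) 1, ∀ z ∉ K, H (t, z) = 0

variable (I) in
/-- The curve `c` has the velocity `w` at the time `t` of `[0, 1]`. -/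
def HasVel (c : ℝ → N) (t : ℝ) (w : TangentSpace I (c t)) : Prop :=
  ∃ D, HasMFDerivWithinAt 𝓘(ℝ) I c (Icc 0 1) t D ∧ D (1 : ℝ) = w

/-- `φ t`, `0 ≤ t ≤ 1`, is the flow of the Hamiltonian vector field `X_t` of `H_t`. -/
def IsFlow (H : ℝ × N → ℝ) (φ : ℝ → N → N) : Prop :=
  ∃ X : ℝ → ∀ z : N, TangentSpace I z,
    (∀ t ∈ Icc (0 : ℝ) 1, IsHamField om (fun y => H (t, y)) (X t)) ∧
    (∀ z, φ 0 z = z) ∧ ∀ z, ∀ t ∈ Icc (0 : ℝ) 1, HasVel I (fun s => φ s z) t (X t (φ t z))

/-- `Z` is Hamiltonian isotopic to `L`. -/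
def HamIso (Z L : Set N) : Prop :=
  ∃ (H : ℝ × N → ℝ) (φ : ℝ → N → N), IsHam I H ∧ IsFlow om H φ ∧ φ 1 '' Z = L

/-- Every compactly supported Hamiltonian has a flow. -/
def HasFlows : Prop := ∀ H, IsHam I H → ∃ φ, IsFlow om H φ

/-- Every exact Lagrangian embedding of a closed connected manifold `M` with the model `E` has an
image that is Hamiltonian isotopic to `Z`. -/
def AllIsotopic (E : Type) [NormedAddCommGroup E] [NormedSpace ℝ E] (Z : Set N) : Prop :=
  ∀ (M : Type) [TopologicalSpace M] [T2Space M] [CompactSpace M] [ConnectedSpace M]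
    [ChartedSpace E M] [IsManifold 𝓘(ℝ, E) ∞ M] (ι : M → N),
    IsExact α om E ι → HamIso om Z (range ι)

end Forms

variable (E : Type) [NormedAddCommGroup E] [NormedSpace ℝ E]

/-- The model `E × E*` of the cotangent bundle of a manifold with the model `E`. -/
noncomputable def IC := 𝓘(ℝ, E).prod 𝓘(ℝ, E →L[ℝ] ℝ)

variable (Q : Type) [TopologicalSpace Q] [ChartedSpace E Q] [IsManifold 𝓘(ℝ, E) ∞ Q]

/-- The cotangent bundle `T*Q`: the total space of the bundle of the linear forms on the tangent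
spaces. -/
def Cot : Type :=
  TotalSpace (E →L[ℝ] ℝ) fun q : Q => TangentSpace 𝓘(ℝ, E) q →L[ℝ] Trivial Q ℝ q

/-- The topology of `T*Q` is the one that Mathlib puts on the total space. -/
noncomputable instance topCot : TopologicalSpace (Cot E Q) :=
  Bundle.ContinuousLinearMap.topologicalSpaceTotalSpace (RingHom.id ℝ) E (TangentSpace 𝓘(ℝ, E)) ℝ
    (Trivial Q ℝ)

/-- The charts of `T*Q` are the ones that Mathlib puts on the total space. -/
noncomputable instance chartCot : ChartedSpace (ModelProd E (E →L[ℝ] ℝ)) (Cot E Q) :=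
  FiberBundle.chartedSpace (HB := E) (F := E →L[ℝ] ℝ)
    (E := fun q : Q => TangentSpace 𝓘(ℝ, E) q →L[ℝ] Trivial Q ℝ q)

/-- `T*Q` is a smooth manifold. -/
instance mfdCot : IsManifold (IC E) ∞ (Cot E Q) :=
  TotalSpace.isManifold (IB := 𝓘(ℝ, E)) (F := E →L[ℝ] ℝ)
    (E := fun q : Q => TangentSpace 𝓘(ℝ, E) q →L[ℝ] Trivial Q ℝ q)

/-- The projection `π : T*Q → Q`. -/
def pr (z : Cot E Q) : Q := z.1

/-- The covector `p` of the point `(q, p)`. -/
def cov (z : Cot E Q) : TangentSpace 𝓘(ℝ, E) (pr E Q z) →L[ℝ] ℝ := z.2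

/-- The canonical one-form `λ_(q,p)(v) = p(dπ(v))`. -/
noncomputable def lam (z : Cot E Q) : TangentSpace (IC E) z →L[ℝ] ℝ :=
  (cov E Q z).comp (mfderiv (IC E) 𝓘(ℝ, E) (pr E Q) z)

/-- The zero section. -/
def zero : Set (Cot E Q) := {z | cov E Q z = 0}

/-- The canonical one-form is smooth, `dλ` exists uniquely, and so do Hamiltonian vector fields. -/
def Liouville : Prop := IsLiouville (lam E Q)

/-- The nearby Lagrangian conjecture for `Q`: with `om = dλ`, every closed connected exact embedded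
Lagrangian of `T*Q` is Hamiltonian isotopic to the zero section. -/
def Nearby : Prop := ∀ om, IsD (lam E Q) om → AllIsotopic (lam E Q) om E (zero E Q)

/-- With `om = dλ`, every compactly supported Hamiltonian on `T*Q` has a flow. -/
def Flows : Prop := ∀ om, IsD (lam E Q) om → HasFlows om

/-- The nearby Lagrangian conjecture (Q1). -/
def NearbyLagrangian : Prop :=
  ∀ (n : ℕ) (Q : Type) [TopologicalSpace Q] [T2Space Q] [CompactSpace Q] [ConnectedSpace Q]
    [ChartedSpace (EuclideanSpace ℝ (Fin n)) Q] [IsManifold (𝓡 n) ∞ Q],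
    Nearby (EuclideanSpace ℝ (Fin n)) Q

end Vale.Agent.P220I
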