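import Vale.Agent.P220I10.Defs
import Mathlib.Geometry.Manifold.BumpFunction
import Mathlib.Geometry.Manifold.VectorBundle.MDifferentiable
import Mathlib.Geometry.Manifold.MFDeriv.Atlas
import Mathlib.Geometry.Manifold.MFDeriv.FDeriv
import Mathlib.LinearAlgebra.FreeModule.Finite.Matrix

/-!
# P220I10: one-forms that are linear in every preferred chart
-/

set_option linter.unusedSectionVars false

open Set Bundle Filter VectorField
open scoped ContDiff Manifold Topology

namespace Vale.Agent.P220I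

variable {F G : Type} [NormedAddCommGroup F] [NormedSpace ℝ F] [TopologicalSpace G]
  {I : ModelWithCorners ℝ F G} {N : Type} [TopologicalSpace N] [ChartedSpace G N]
  [IsManifold I ∞ N] [I.Boundaryless] [FiniteDimensional ℝ F]

theorem minS : minSmoothness ℝ 2 ≤ (∞ : ℕ∞ω) := by
  rw [minSmoothness_of_isRCLikeNormedField]
  exact ENat.LEInfty.out

variable (I) in
/-- derivative of the inverse of the chart -/
noncomputable def dS (x₀ : N) (y : F) : F →L[ℝ] F :=
  mfderiv 𝓘(ℝ, F) I (extChartAt I x₀).symm y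

/-- a vector field, fibres read as the model space -/
def vE (X : ∀ x : N, TangentSpace I x) (x : N) : F := X x

/-- a one-form, fibres read as the model space -/
def aE (α : ∀ x : N, TangentSpace I x →L[ℝ] ℝ) (x : N) : F →L[ℝ] ℝ := α x

/-- a vector field read in the chart -/
noncomputable def pb (x₀ : N) (X : ∀ x : N, TangentSpace I x) (y : F) : F :=
  mpullback 𝓘(ℝ, F) I (extChartAt I x₀).symm X y

/-- the invariant formula -/
noncomputable def form (α : ∀ x : N, TangentSpace I x →L[ℝ] ℝ) (X Y : Vec I N) (x : N) : ℝ :=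
  mvfderiv I (fun y => α y (Y y)) x (X x) - mvfderiv I (fun y => α y (X y)) x (Y x) -
    α x (VectorField.mlieBracket I X Y x)

/-- the form is `A` in every preferred chart -/
def Loc (α : ∀ x : N, TangentSpace I x →L[ℝ] ℝ) (A : F →L[ℝ] F →L[ℝ] ℝ) : Prop :=
  ∀ (x₀ : N), ∀ y ∈ (extChartAt I x₀).target, ∀ v,
    aE α ((extChartAt I x₀).symm y) (dS I x₀ y v) = A y v

variable {x₀ : N} {y : F}

theorem sm_symm (hy : y ∈ (extChartAt I x₀).target) :
    ContMDiffAt 𝓘(ℝ, F) I ∞ (extChartAt I x₀).symm y :=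
  (contMDiffOn_extChartAt_symm x₀).contMDiffAt ((isOpen_extChartAt_target x₀).mem_nhds hy)

theorem dS_inv (hy : y ∈ (extChartAt I x₀).target) :
    (mfderiv 𝓘(ℝ, F) I (extChartAt I x₀).symm y).IsInvertible := by
  have h := isInvertible_mfderivWithin_extChartAt_symm hy
  rwa [I.range_eq_univ, mfderivWithin_univ] at h

theorem dS_pb (X : ∀ x : N, TangentSpace I x) (hy : y ∈ (extChartAt I x₀).target) :
    dS I x₀ y (pb x₀ X y) = vE X ((extChartAt I x₀).symm y) :=
  (dS_inv hy).self_apply_inverse _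

theorem dS_self (x : N) (v : F) : dS I x (extChartAt I x x) v = v := by
  have h := mfderivWithin_range_extChartAt_symm (I := I) (x := x)
  rw [I.range_eq_univ, mfderivWithin_univ] at h
  exact congrArg (fun C : F →L[ℝ] F => C v) h

theorem pb_self (X : ∀ x : N, TangentSpace I x) (x : N) : pb x X (extChartAt I x x) = vE X x := by
  have h := dS_pb X (mem_extChartAt_target (I := I) x)
  rwa [dS_self, extChartAt_to_inv] at h

theorem pb_diff (X : Vec I N) (hy : y ∈ (extChartAt I x₀).target) :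
    DifferentiableAt ℝ (pb x₀ X) y := by
  have := FiniteDimensional.complete ℝ F
  have h := ContMDiffAt.mpullback_vectorField_preimage (m := ∞) (n := ∞)
    (X.contMDiff ((extChartAt I x₀).symm y)) (sm_symm hy) (dS_inv hy) (by simp)
  exact (contMDiffAt_vectorSpace_iff_contDiffAt.1 h).differentiableAt (by simp)

variable {α : ∀ x : N, TangentSpace I x →L[ℝ] ℝ} {A : F →L[ℝ] F →L[ℝ] ℝ}

theorem Loc.ap (h : Loc α A) (Y : ∀ x : N, TangentSpace I x) (hy : y ∈ (extChartAt I x₀).target) :
    α ((extChartAt I x₀).symm y) (Y ((extChartAt I x₀).symm y)) = A y (pb x₀ Y y) := by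
  rw [← h x₀ y hy, dS_pb Y hy]
  rfl

theorem Loc.der (h : Loc α A) (X Y : Vec I N) (hy : y ∈ (extChartAt I x₀).target) :
    mvfderiv I (fun z => α z (Y z)) ((extChartAt I x₀).symm y) (X ((extChartAt I x₀).symm y)) =
      A (pb x₀ X y) (pb x₀ Y y) + A y (fderiv ℝ (pb x₀ Y) y (pb x₀ X y)) := by
  have hk := A.hasFDerivAt.clm_apply (pb_diff Y hy).hasFDerivAt
  have hs := (extChartAt I x₀).map_target hy
  have hk' : DifferentiableAt ℝ (fun w => A w (pb x₀ Y w))
      (extChartAt I x₀ ((extChartAt I x₀).symm y)) := by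
    rw [(extChartAt I x₀).right_inv hy]
    exact hk.differentiableAt
  have hg : MDifferentiableAt I 𝓘(ℝ) (fun z => α z (Y z)) ((extChartAt I x₀).symm y) := by
    refine (hk'.mdifferentiableAt.comp _ (mdifferentiableAt_extChartAt
      (by rwa [extChartAt_source] at hs))).congr_of_eventuallyEq ?_
    filter_upwards [(isOpen_extChartAt_source x₀).mem_nhds hs] with z hz
    have h1 := h.ap Y ((extChartAt I x₀).map_source hz)
    have h2 := congrArg (fun z => α z (Y z)) ((extChartAt I x₀).left_inv hz)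
    exact h2.symm.trans h1
  have h1 := mfderiv_comp y hg ((sm_symm hy).mdifferentiableAt (by simp))
  have h2 : (fun z => α z (Y z)) ∘ (extChartAt I x₀).symm =ᶠ[𝓝 y] fun w => A w (pb x₀ Y w) := by
    filter_upwards [(isOpen_extChartAt_target x₀).mem_nhds hy] with w hw
    exact h.ap Y hw
  rw [h2.mfderiv_eq, mfderiv_eq_fderiv, hk.fderiv] at h1
  have h3 := congrArg (fun L : F →L[ℝ] ℝ => L (pb x₀ X y)) h1
  have h4 := congrArg (mvfderiv I (fun z => α z (Y z)) ((extChartAt I x₀).symm y)) (dS_pb X hy)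
  refine h4.symm.trans (h3.symm.trans ?_)
  exact add_comm _ _

theorem pb_brk (X Y : Vec I N) (hy : y ∈ (extChartAt I x₀).target) :
    pb x₀ (mlieBracket I X Y) y = lieBracket ℝ (pb x₀ X) (pb x₀ Y) y := by
  have := FiniteDimensional.complete ℝ F
  have : IsManifold I (minSmoothness ℝ 2) N := IsManifold.of_le minS
  have h := mpullback_mlieBracket (I := 𝓘(ℝ, F)) (I' := I) (f := (extChartAt I x₀).symm) (V := X)
    (W := Y) (x₀ := y) ((X.contMDiff _).mdifferentiableAt (by simp))
    ((Y.contMDiff _).mdifferentiableAt (by simp)) (sm_symm hy) minS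
  rw [← mlieBracketWithin_univ (V := mpullback 𝓘(ℝ, F) I (extChartAt I x₀).symm X),
    mlieBracketWithin_eq_lieBracketWithin] at h
  have h' : pb x₀ (mlieBracket I X Y) y = lieBracketWithin ℝ (pb x₀ X) (pb x₀ Y) univ y := h
  rwa [lieBracketWithin_univ] at h'

theorem Loc.form_eq (h : Loc α A) (X Y : Vec I N) (hy : y ∈ (extChartAt I x₀).target) :
    form α X Y ((extChartAt I x₀).symm y) =
      A (pb x₀ X y) (pb x₀ Y y) - A (pb x₀ Y y) (pb x₀ X y) := by
  rw [form, h.der X Y hy, h.der Y X hy, h.ap (mlieBracket I X Y) hy, pb_brk X Y hy, lieBracket,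
    map_sub]
  ring

theorem Loc.form_self (h : Loc α A) (X Y : Vec I N) (x : N) :
    form α X Y x = A (vE X x) (vE Y x) - A (vE Y x) (vE X x) := by
  have h1 := h.form_eq X Y (mem_extChartAt_target (I := I) x)
  rwa [extChartAt_to_inv, pb_self, pb_self] at h1

theorem exists_vec [T2Space N] (x : N) (v : TangentSpace I x) : ∃ U : Vec I N, U x = v := by
  obtain ⟨s, hs, hσ⟩ := FiberBundle.exists_contMDiffOn_extend (k := ∞) I F
    (V := fun y : N => TangentSpace I y) v
  obtain ⟨χ, -, hχ⟩ := (SmoothBumpFunction.nhds_basis_tsupport (I := I) x).mem_iff.mp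
    (interior_mem_nhds.mpr hs)
  have h : ContMDiff I (I.prod 𝓘(ℝ, F)) ∞
      (fun y => (⟨y, χ y • FiberBundle.extend F v y⟩ : TangentBundle I N)) := by
    refine ContMDiffOn.smul_section_of_tsupport ?_ isOpen_interior hχ (hσ.mono interior_subset)
    exact χ.contMDiff.contMDiffOn
  refine ⟨⟨fun y => χ y • FiberBundle.extend F v y, h⟩, ?_⟩
  change χ x • FiberBundle.extend F v x = v
  rw [χ.eq_one, one_smul, FiberBundle.extend_apply_self]

theorem Loc.invar [T2Space N] (h : Loc α A) (hy : y ∈ (extChartAt I x₀).target) (u v : F) :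
    A (dS I x₀ y u) (dS I x₀ y v) - A (dS I x₀ y v) (dS I x₀ y u) = A u v - A v u := by
  obtain ⟨X, hX⟩ := exists_vec (I := I) ((extChartAt I x₀).symm y) (dS I x₀ y u)
  obtain ⟨Y, hY⟩ := exists_vec (I := I) ((extChartAt I x₀).symm y) (dS I x₀ y v)
  have hi : Function.Injective (dS I x₀ y) := (dS_inv hy).injective
  have h1 : pb x₀ X y = u := hi ((dS_pb X hy).trans hX)
  have h2 : pb x₀ Y y = v := hi ((dS_pb Y hy).trans hY)
  have h3 := h.form_eq X Y hy
  rw [h.form_self, h1, h2, show vE X _ = dS I x₀ y u from hX,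
    show vE Y _ = dS I x₀ y v from hY] at h3
  exact h3

/-- the alternating form of a bilinear form -/
noncomputable def bform (A : F →L[ℝ] F →L[ℝ] ℝ) : F [⋀^Fin 2]→L[ℝ] ℝ where
  toFun m := A (m 0) (m 1) - A (m 1) (m 0)
  map_update_add' m i x y := by
    fin_cases i <;> simp <;> ring
  map_update_smul' m i c x := by
    fin_cases i <;> simp <;> ring
  cont := by fun_prop
  map_eq_zero_of_eq' m i j h hij := by
    fin_cases i <;> fin_cases j <;> simp_all

variable (I) in
/-- the same, on the tangent spaces -/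
noncomputable def bT (A : F →L[ℝ] F →L[ℝ] ℝ) (x : N) :
    TangentSpace I x [⋀^Fin 2]→L[ℝ] Trivial N ℝ x := bform (F := F) A

theorem symmL_eq {x : N} (hx : x ∈ (chartAt G x₀).source) :
    ((trivializationAt F (TangentSpace I) x₀).symmL ℝ x : F →L[ℝ] F) =
      dS I x₀ (extChartAt I x₀ x) := by
  rw [TangentBundle.symmL_trivializationAt hx, I.range_eq_univ, mfderivWithin_univ]
  rfl

theorem Loc.smooth2 [T2Space N] (h : Loc α A) :
    ContMDiff I (I.prod 𝓘(ℝ, F [⋀^Fin 2]→L[ℝ] ℝ)) ∞
      (fun x => TotalSpace.mk' (F [⋀^Fin 2]→L[ℝ] ℝ)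
        (E := fun x : N => TangentSpace I x [⋀^Fin 2]→L[ℝ] Trivial N ℝ x) x (bT I A x)) := by
  intro x₀
  rw [Bundle.contMDiffAt_section]
  refine (contMDiffAt_const (c := bform A)).congr_of_eventuallyEq ?_
  filter_upwards [chart_source_mem_nhds G x₀] with x hx
  rw [FiberBundle.trivializationAt_continuousAlternatingMap_apply]
  ext m
  have h1 := h.invar (x₀ := x₀) ((extChartAt I x₀).map_source (by rwa [extChartAt_source]))
    (m 0) (m 1)
  rw [← symmL_eq hx] at h1
  refine Eq.trans ?_ h1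
  simp [ContinuousAlternatingMap.inCoordinates]
  rfl

theorem Loc.smooth1 (h : Loc α A) : IsOneForm α := by
  intro x₀
  rw [contMDiffAt_hom_bundle]
  refine ⟨contMDiffAt_id, (A.contMDiff.contMDiffAt.comp x₀
    (contMDiffAt_extChartAt (I := I) (n := ∞))).congr_of_eventuallyEq ?_⟩
  filter_upwards [chart_source_mem_nhds G x₀] with x hx
  have hs : x ∈ (extChartAt I x₀).source := by rwa [extChartAt_source]
  ext v
  have h1 := h x₀ _ ((extChartAt I x₀).map_source hs) v
  rw [(extChartAt I x₀).left_inv hs, ← symmL_eq hx] at h1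
  refine Eq.trans ?_ h1
  simp [ContinuousLinearMap.inCoordinates]
  rfl

theorem Loc.val_eq [T2Space N] (h : Loc α A) {om : TwoForm I N} (ho : IsD α om) (x : N)
    (u v : TangentSpace I x) : val om u v = A u v - A v u := by
  obtain ⟨X, rfl⟩ := exists_vec x u
  obtain ⟨Y, rfl⟩ := exists_vec x v
  exact (ho X Y x).trans (h.form_self X Y x)

theorem Loc.liouville [T2Space N] (h : Loc α A)
    (hA : ∀ u, (∀ v, A u v - A v u = 0) → u = 0) : IsLiouville α := by
  refine ⟨h.smooth1, ⟨⟨bT I A, h.smooth2⟩, fun X Y x => (h.form_self X Y x).symm,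
    fun om ho => ?_⟩, fun om ho f => ?_⟩
  · ext x m
    have h1 : m = ![m 0, m 1] := by
      funext i
      fin_cases i <;> rfl
    rw [h1]
    exact h.val_eq ho x _ _
  · have h1 : Function.Injective ((A - A.flip : F →L[ℝ] F →L[ℝ] ℝ) : F →ₗ[ℝ] F →L[ℝ] ℝ) :=
      (injective_iff_map_eq_zero _).2 fun u hu => hA u fun v =>
        congrArg (fun C : F →L[ℝ] ℝ => C v) hu
    have h2 : Module.finrank ℝ F = Module.finrank ℝ (F →L[ℝ] ℝ) := by
      rw [← (LinearMap.toContinuousLinearMap (𝕜 := ℝ) (E := F) (F' := ℝ)).finrank_eq,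
        Module.finrank_linearMap, Module.finrank_self, mul_one]
    have h3 := (LinearMap.injective_iff_surjective_of_finrank_eq_finrank h2).1 h1
    choose X hX using fun x => h3 (-mvfderiv I f x)
    refine ⟨X, fun x v => (h.val_eq ho x _ _).trans
      (congrArg (fun C : F →L[ℝ] ℝ => C v) (hX x)), fun Y hY => funext fun x => h1 ?_⟩
    rw [hX x]
    ext v
    exact (h.val_eq ho x _ _).symm.trans (hY x v)

end Vale.Agent.P220I
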