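import Vale.Agent.P220I10.Cot
import Vale.Agent.P220Z.Top.Pre
import Vale.Agent.P220Z.Rig.Main
import Vale.Agent.P220Z.Abs.Flow

/-!
# P220I10: the counterexample for the invariant exterior derivative
-/

set_option linter.unusedSectionVars false

open Set Bundle Filter
open scoped ContDiff Manifold Topology

namespace Vale.Agent.P220I

open Vale.Agent.P220Z

section

variable {F G : Type} [NormedAddCommGroup F] [NormedSpace ℝ F] [TopologicalSpace G]
  {I : ModelWithCorners ℝ F G} {N : Type} [TopologicalSpace N] [ChartedSpace G N]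
  [IsManifold I ∞ N] [I.Boundaryless] [FiniteDimensional ℝ F]
  {α : ∀ x : N, TangentSpace I x →L[ℝ] ℝ} {A : F →L[ℝ] F →L[ℝ] ℝ}

theorem Loc.dOne_eq (h : Loc α A) (x : N) (u v : TangentSpace I x) :
    Abs.dOne I α x u v = A u v - A v u := by
  have key : ∀ a b : F, fderiv ℝ (Abs.coef I α x b) (extChartAt I x x) a = A a b := by
    intro a b
    have h3 : Abs.coef I α x b =ᶠ[𝓝 (extChartAt I x x)] A.flip b := by
      filter_upwards [(isOpen_extChartAt_target (I := I) x).mem_nhds (mem_extChartAt_target x)]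
        with y hy
      exact h x y hy b
    rw [h3.fderiv_eq, ContinuousLinearMap.fderiv]
    rfl
  rw [Abs.dOne, Abs.chart_self, Abs.chart_self]
  exact congrArg₂ (· - ·) (key u v) (key v u)

end

variable {E : Type} [NormedAddCommGroup E] [NormedSpace ℝ E] {Q : Type} [TopologicalSpace Q]
  [ChartedSpace E Q] [IsManifold 𝓘(ℝ, E) ∞ Q] [FiniteDimensional ℝ E] [T2Space Q]
  {om : TwoForm (IC E) (Cot E Q)}

theorem val_om (ho : IsD (lam E Q) om) (z : Cot E Q) (u v : TangentSpace (IC E) z) :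
    val om u v = Abs.om z u v := by
  have := bdIC (E := E)
  have := t2Cot (E := E) (Q := Q)
  exact (loc_lam.val_eq ho z u v).trans (loc_lam.dOne_eq z u v).symm

theorem flow_iff (ho : IsD (lam E Q) om) (H : ℝ × Cot E Q → ℝ) (φ : ℝ → Cot E Q → Cot E Q) :
    IsFlow om H φ ↔ Abs.IsFlow H φ := by
  refine exists_congr fun X => and_congr (forall₂_congr fun t _ => forall₂_congr fun z v => ?_)
    (and_congr_right' (forall₃_congr fun z t _ =>
    ⟨fun ⟨D, h1, h2⟩ => h1.congr_mfderiv (ContinuousLinearMap.ext fun a => ?_),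
      fun h => ⟨_, h, one_smul ℝ _⟩⟩))
  · rw [val_om ho]
    exact Iff.rfl
  exact (congrArg D (mul_one (show ℝ from a)).symm).trans
    ((D.map_smul (show ℝ from a) (1 : ℝ)).trans (congrArg _ h2))

theorem counter :
    ∃ (n : ℕ) (Q : Type) (_ : TopologicalSpace Q) (_ : T2Space Q) (_ : CompactSpace Q)
      (_ : ConnectedSpace Q) (_ : ChartedSpace (EuclideanSpace ℝ (Fin n)) Q)
      (_ : IsManifold (𝓡 n) ∞ Q),
      ¬ Nearby (EuclideanSpace ℝ (Fin n)) Q ∧ Flows (EuclideanSpace ℝ (Fin n)) Q := by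
  obtain ⟨N, n, S, L, h1, h2, -, h3⟩ := Top.counter_of_A Rig.stThA
  obtain ⟨Q, _, _, _, _, _, _, M, _, _, _, _, _, _, ι, h4, h5, h6⟩ :=
    Abs.transfer_flow (finrank_euclideanSpace_fin (𝕜 := ℝ)) h1 h2 h3
  refine ⟨n, Q, _, ‹_›, ‹_›, ‹_›, _, ‹_›, fun h => ?_,
    fun om ho H a => (h6 H ⟨a.1, a.2⟩).imp fun φ => (flow_iff ho H φ).2⟩
  obtain ⟨om, ho, -⟩ := (liouville (E := EuclideanSpace ℝ (Fin n)) (Q := Q)).2.1
  obtain ⟨H, φ, a, b, c⟩ := h om ho M ι
    ⟨h4.1, h4.2, h4.3, fun x u v => (val_om ho _ _ _).trans (h4.4 x u v), h4.5⟩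
  exact h5 ⟨H, φ, ⟨a.1, a.2⟩, (flow_iff ho H φ).1 b, c⟩

end Vale.Agent.P220I
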